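import Vale.Agent.P237.Quant.TailData.N73.tailN73N0Part0
import Vale.Agent.P237.Quant.TailData.N73.tailN73N0Part1
import Vale.Agent.P237.Quant.TailData.N73.tailN73N0Part2
import Vale.Agent.P237.Quant.TailData.N73.tailN73N0Part3
import Vale.Agent.P237.Quant.TailData.N73.tailN73N0Part4

/-!
Tail calibration tailN73N0 in dimension 73. The check. Generated data, checked by the kernel.
-/

set_option maxRecDepth 100000
set_option linter.all false

namespace Vale.Agent.P237.Quant.TailData

open TailCert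


/-- The calibration. -/
noncomputable def tailN73N0 : Cfg :=
  tailN73N0Base.withIvals (List.flatten [tailN73N0L0, tailN73N0L1, tailN73N0L2, tailN73N0L3, tailN73N0L4, tailN73N0L5, tailN73N0L6, tailN73N0L7, tailN73N0L8, tailN73N0L9, tailN73N0L10, tailN73N0L11, tailN73N0L12, tailN73N0L13, tailN73N0L14, tailN73N0L15, tailN73N0L16, tailN73N0L17, tailN73N0L18, tailN73N0L19])

theorem tailN73N0_parts : [tailN73N0L0, tailN73N0L1, tailN73N0L2, tailN73N0L3, tailN73N0L4, tailN73N0L5, tailN73N0L6, tailN73N0L7, tailN73N0L8, tailN73N0L9, tailN73N0L10, tailN73N0L11, tailN73N0L12, tailN73N0L13, tailN73N0L14, tailN73N0L15, tailN73N0L16, tailN73N0L17, tailN73N0L18, tailN73N0L19].Forall fun l => tailN73N0Base.partUsed tailN73N0Used l = true := by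
  simp only [List.forall_cons, List.Forall]
  exact ⟨tailN73N0L0_ok, tailN73N0L1_ok, tailN73N0L2_ok, tailN73N0L3_ok, tailN73N0L4_ok, tailN73N0L5_ok, tailN73N0L6_ok, tailN73N0L7_ok, tailN73N0L8_ok, tailN73N0L9_ok, tailN73N0L10_ok, tailN73N0L11_ok, tailN73N0L12_ok, tailN73N0L13_ok, tailN73N0L14_ok, tailN73N0L15_ok, tailN73N0L16_ok, tailN73N0L17_ok, tailN73N0L18_ok, tailN73N0L19_ok⟩

theorem tailN73N0_check : tailN73N0.check = true :=
  Cfg.check_of_parts (by decide +kernel) tailN73N0_parts

end Vale.Agent.P237.Quant.TailData
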